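import Crest.Agent.X212.Cab39.Zero
import Crest.Agent.X212.Flo26.More
import Crest.Agent.X212.Sm10.Rho
import Crest.Agent.X212.Hel40.Defs
import Crest.Agent.X212.Prf6.Defs

-- ▼ part X212/Cab39/Gen
section

/-!
# X212 / Cab39 / Gen (helper39): the generator of a smooth global flow

* `gen I F`, `Flw.smV`, `Flw.fl_eq`, `Flw.mfderiv_gen` : generic;
* `vf t R` : the generator of `flo t R`;  `dPhi_vf` : `d Phi (vf) = 2 sp · i · Phi`;
  `vf_qa`, `vf_far` : the field in the tube of the companion and outside.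
-/

set_option autoImplicit false
set_option linter.unusedSectionVars false

open Set Filter Topology Function
open scoped ContDiff Manifold
open Crest.GeometryTopology.DehnSurgery Crest.Agent.X212.Glue52 Crest.Agent.X212.Ext52
  Crest.Agent.X212.Flo26

noncomputable section

namespace Crest.Agent.X212.Cab39

section gen

variable {E : Type} [NormedAddCommGroup E] [NormedSpace ℝ E]
  {H : Type*} [TopologicalSpace H] {I : ModelWithCorners ℝ E H}
  {M : Type*} [TopologicalSpace M] [ChartedSpace H M] [IsManifold I ∞ M]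
  {E' : Type} [NormedAddCommGroup E'] [NormedSpace ℝ E']
  {H' : Type*} [TopologicalSpace H'] {J : ModelWithCorners ℝ E' H'}
  {N : Type*} [TopologicalSpace N] [ChartedSpace H' N] [IsManifold J ∞ N] {F : ℝ → M → M}

variable (I) in
/-- the velocity at time zero -/
def gen (F : ℝ → M → M) (x : M) : TangentSpace I x := (mfderiv 𝓘(ℝ, ℝ) I (fun s => F s x) 0 1 : E)

variable (I) in
/-- a smooth global flow -/
structure Flw (F : ℝ → M → M) : Prop where
  sm : ContMDiff (𝓘(ℝ, ℝ).prod I) I ∞ fun p : ℝ × M => F p.1 p.2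
  zero : ∀ x, F 0 x = x
  add : ∀ s s' x, F (s + s') x = F s (F s' x)

theorem Flw.sm_time (h : Flw I F) (x : M) : ContMDiff 𝓘(ℝ, ℝ) I ∞ fun s => F s x :=
  h.sm.comp (contMDiff_id.prodMk contMDiff_const)

theorem Flw.has0 (h : Flw I F) (x : M) :
    HasMFDerivAt 𝓘(ℝ, ℝ) I (fun s => F s x) 0 ((1 : ℝ →L[ℝ] ℝ).smulRight (gen I F x : E)) := by
  refine (((h.sm_time x) 0).mdifferentiableAt (by simp)).hasMFDerivAt.congr_mfderiv ?_
  ext
  exact (one_smul ℝ (gen I F x : E)).symm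

theorem Flw.gen_eq (h : Flw I F) (x : M) : (gen I F x : E) =
    mfderiv (𝓘(ℝ, ℝ).prod I) I (fun p : ℝ × M => F p.1 p.2) (0, x) ((1 : ℝ), (0 : E)) := by
  have h1 := HasMFDerivAt.comp (f := fun s : ℝ => (s, x)) (0 : ℝ)
    ((h.sm (0, x)).mdifferentiableAt (by simp)).hasMFDerivAt
    ((hasMFDerivAt_id (I := 𝓘(ℝ, ℝ)) (0 : ℝ)).prodMk (hasMFDerivAt_const (I' := I) x (0 : ℝ)))
  exact congrArg (fun L : ℝ →L[ℝ] E => L 1) h1.mfderiv

theorem Flw.smV (h : Flw I F) : SmV I (gen I F) := by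
  have h1 : SmV (𝓘(ℝ, ℝ).prod I) fun p : ℝ × M => (((1 : ℝ), 0) : TangentSpace (𝓘(ℝ, ℝ).prod I) p) :=
    SmV.prod (a := fun _ => (1 : ℝ)) (b := fun _ => 0)
      ((smV_model.2 contDiff_const : SmV 𝓘(ℝ, ℝ) fun _ : ℝ => (1 : ℝ)).comp contMDiff_fst)
      ((SmV.zero (I := I)).comp contMDiff_snd)
  refine ((h1.tangent h.sm).comp ((contMDiff_const (c := (0 : ℝ))).prodMk contMDiff_id)).congr
    fun x => ?_
  rw [h.gen_eq]
  exact congrArg (fun y => (⟨y, _⟩ : TangentBundle I M)) (h.zero x).symm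

theorem Flw.curve (h : Flw I F) (x : M) (s : ℝ) : HasMFDerivAt 𝓘(ℝ, ℝ) I (fun s => F s x) s
    ((1 : ℝ →L[ℝ] ℝ).smulRight (gen I F (F s x))) := by
  have h1 : HasMFDerivAt 𝓘(ℝ, ℝ) 𝓘(ℝ, ℝ) (fun t : ℝ => t - s) s (ContinuousLinearMap.id ℝ ℝ) :=
    ((hasFDerivAt_id s).sub_const s).hasMFDerivAt
  have h2 := HasMFDerivAt.comp s (by rw [sub_self]; exact h.has0 (F s x)) h1
  have e : (fun t => F t x) = (fun r => F r (F s x)) ∘ fun t : ℝ => t - s :=
    funext fun t => by simp [← h.add]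
  rw [e]
  exact h2

/-- derivative of a map along the generator -/
theorem Flw.mfderiv_gen (h : Flw I F) {f : M → N} {x : M} (hf : MDifferentiableAt I J f x) :
    (mfderiv I J f x (gen I F x) : E') = mfderiv 𝓘(ℝ, ℝ) J (fun s => f (F s x)) 0 1 := by
  have h1 := (HasMFDerivAt.comp (0 : ℝ) (by rw [h.zero]; exact hf.hasMFDerivAt) (h.has0 x)).mfderiv
  refine Eq.trans ?_ (congrArg (fun L : ℝ →L[ℝ] E' => L 1) h1).symm
  exact (congrArg (fun v : E => (mfderiv I J f x v : E')) (one_smul ℝ (gen I F x : E))).symm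

/-- naturality of generators -/
theorem gen_map {G : ℝ → N → N} (h : Flw I F) {f : M → N} {x : M} (hf : MDifferentiableAt I J f x)
    (e : ∀ᶠ s in 𝓝 0, G s (f x) = f (F s x)) : gen J G (f x) = mfderiv I J f x (gen I F x) := by
  refine Eq.trans ?_ (h.mfderiv_gen hf).symm
  exact congrArg (fun L : ℝ →L[ℝ] E' => L 1) (EventuallyEq.mfderiv_eq e)

theorem gen_of_fix {x : M} (e : ∀ s, F s x = x) : gen I F x = 0 := by
  rw [gen, funext e, mfderiv_const]
  rfl

variable [I.Boundaryless] [T2Space M] [CompleteSpace E]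

theorem Flw.fl_eq (h : Flw I F) (s : ℝ) (x : M) :
    (s, x) ∈ dom (gen I F) ∧ Flo26.fl (gen I F) s x = F s x := by
  simpa only [h.zero] using fl_of_curve h.smV (γ := fun s => F s x) (T := s)
    fun _ _ => .of_forall (h.curve x)

end gen

variable {t : Tube} {R : ℝ}

theorem flw_flo (hR : 3 ≤ R) : Flw (𝓡 3) (flo t R) := ⟨contMDiff_flo hR, flo_zero hR, flo_add hR⟩

theorem flw_fV (R : ℝ) : Flw IT (fV R) := ⟨contMDiff_fV R, fV_zero R, fV_add R⟩

/-- the generator of `flo` -/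
def vf (t : Tube) (R : ℝ) : (p : C0 t) → TangentSpace (𝓡 3) p := gen (𝓡 3) (flo t R)

theorem smV_vf (hR : 3 ≤ R) : SmV (𝓡 3) (vf t R) := (flw_flo hR).smV

theorem fl_vf (hR : 3 ≤ R) (s : ℝ) (p : C0 t) : Flo26.fl (vf t R) s p = flo t R s p :=
  ((flw_flo hR).fl_eq s p).2

theorem vf_far (hR : 3 ≤ R) {p : C0 t} (h : p ∉ Q t (R + 1)) : vf t R p = 0 :=
  gen_of_fix fun s => flo_of_notMem hR s h

theorem vf_qa (hR : 3 ≤ R) {v : Circle × ℂ} (h : ff v ≠ 0) :
    vf t R (qa t v) = mfderiv IT (𝓡 3) (qa t) v (gen IT (fV R) v) :=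
  gen_map (flw_fV R) ((ld_qa h).mdifferentiableAt (by simp)) (.of_forall fun s => flo_qa hR s h)

/-- in the shell the field is the meridional rotation -/
theorem gen_fV_mid {v : Circle × ℂ} (h : 4 ≤ ‖v.2‖) (h' : ‖v.2‖ ≤ R) :
    gen IT (fV R) v = ((0, Complex.I * v.2) : EuclideanSpace ℝ (Fin 1) × ℂ) := by
  have h1 : HasDerivAt (fun s : ℝ => (Circle.exp s : ℂ) * v.2) (Complex.I * v.2) 0 := by
    simpa [Circle.coe_exp] using
      ((((hasDerivAt_id (0 : ℝ)).ofReal_comp).mul_const Complex.I).cexp).mul_const v.2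
  have h2 := (hasMFDerivAt_const (I := 𝓘(ℝ, ℝ)) (I' := 𝓡 1) v.1 (0 : ℝ)).prodMk
    h1.hasFDerivAt.hasMFDerivAt
  have e : (fun s => fV R s v) = fun s : ℝ => (v.1, (Circle.exp s : ℂ) * v.2) :=
    funext fun s => fV_mid s h h'
  rw [gen, e]
  exact (congrArg (fun L : ℝ →L[ℝ] _ => L 1) h2.mfderiv).trans (Prod.ext rfl (one_smul ℝ _))

/-- the logarithmic derivative of `Phi` along `vf` -/
theorem dPhi_vf (k : KD) (hR : 3 ≤ R) (p : C0 k.toTube) :
    mfderiv (𝓡 3) 𝓘(ℝ, ℂ) (fun q => (Phi k q : ℂ)) p (vf _ R p) =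
      (2 * sp k.toTube R p * Complex.I * Phi k p : ℂ) := by
  rw [vf, (flw_flo hR).mfderiv_gen ((ccoe (contMDiff_Phi k p)).mdifferentiableAt (by simp))]
  have h1 : HasDerivAt (fun s : ℝ => (Phi k (flo k.toTube R s p) : ℂ))
      (2 * sp k.toTube R p * Complex.I * Phi k p) 0 := by
    have := ((((hasDerivAt_id (0 : ℝ)).ofReal_comp).mul_const
      (2 * sp k.toTube R p * Complex.I)).cexp).mul_const (Phi k p : ℂ)
    refine (this.congr_deriv (by simp)).congr_of_eventuallyEq (.of_forall fun s => ?_)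
    simp only [Phi_flo k hR, Circle.coe_mul, sq, Circle.coe_exp, ← Complex.exp_add, id]
    congr 2
    push_cast
    ring
  exact (congrArg (fun L : ℝ →L[ℝ] ℂ => L 1) h1.hasFDerivAt.hasMFDerivAt.mfderiv).trans (one_smul ℝ _)

end Crest.Agent.X212.Cab39
end
end

-- ▼ part X212/Cab39/Lev
section

/-!
# X212 / Cab39 (helper39), part 5: the levels of `Phi` inside the tube are connected

* `conn_Q` : `Q t r` is connected; `conn_lev` : `Q t r ∩ Phi ⁻¹' {c}` (the cabling annulus) is connected;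
* `lev_far` : beyond radius `3` the level is `dir z = ± √c`.
-/

set_option autoImplicit false
set_option linter.unusedSectionVars false
set_option linter.style.haveILetI false

open Set Filter Topology Function TopologicalSpace Metric
open scoped ContDiff Manifold
open Crest.GeometryTopology.DehnSurgery Crest.Agent.X212.Glue52 Crest.Agent.X212.Ext52

noncomputable section

namespace Crest.Agent.X212.Cab39

/-- a level of a circle map rotated by a flow: connected if the space is connected, the return map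
has order two and a fixed point -/
theorem conn_level {X : Type*} [TopologicalSpace X] [PreconnectedSpace X] {F : ℝ → X → X}
    (hF : Continuous fun p : ℝ × X => F p.1 p.2) (h0 : ∀ p, F 0 p = p)
    (ha : ∀ s s' p, F (s + s') p = F s (F s' p)) (h2 : ∀ p, F (2 * Real.pi) p = p) {Φ : X → Circle}
    (hΦ : Continuous Φ) (hr : ∀ s p, Φ (F s p) = Circle.exp s ^ 2 * Φ p) {c : Circle} {p₀ : X}
    (hp : Φ p₀ = c) (hf : F Real.pi p₀ = p₀) : IsPreconnected (Φ ⁻¹' {c}) := by
  have e2 : ∀ s : ℝ, Circle.exp s ^ 2 = Circle.exp (2 * s) := fun s => by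
    rw [sq, ← Circle.exp_add, two_mul]
  have hπ : ∀ p, Φ (F Real.pi p) = Φ p := fun p => by rw [hr, e2, Circle.exp_two_pi, one_mul]
  have hπ2 : ∀ p, F Real.pi (F Real.pi p) = p := fun p => by rw [← ha, ← two_mul, h2]
  -- saturation of an open subset of the level is open
  have op : ∀ u : Set X, IsOpen u → IsOpen {q | ∃ s, F s q ∈ u ∧ Φ (F s q) = c} := fun u hu => by
    refine isOpen_iff_mem_nhds.2 ?_
    rintro q ⟨s, hs, hc⟩
    let σ : X → ℝ := fun x => s + Complex.arg (Φ q / Φ x : Circle) / 2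
    have hσ : ContinuousAt σ q := by
      refine continuousAt_const.add (ContinuousAt.div_const ?_ 2)
      refine ContinuousAt.comp (f := fun x => ((Φ q / Φ x : Circle) : ℂ)) (g := Complex.arg)
        (Complex.continuousAt_arg (by simp)) ?_
      exact (contMDiff_circle_coe.continuous.comp (continuous_const.div' hΦ)).continuousAt
    have hq : σ q = s := by simp [σ]
    have h1 : ContinuousAt (fun x => F (σ x) x) q :=
      hF.continuousAt.comp (f := fun x => (σ x, x)) (hσ.prodMk continuousAt_id)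
    filter_upwards [h1.preimage_mem_nhds (hu.mem_nhds (by rwa [hq]))] with x hx
    refine ⟨σ x, hx, ?_⟩
    rw [← hc, hr, hr, e2, e2, mul_add, Circle.exp_add, mul_div_cancel₀ _ two_ne_zero, Circle.exp_arg,
      mul_assoc, div_mul_cancel]
  have key : ∀ u v : Set X, IsOpen u → IsOpen v → Φ ⁻¹' {c} ⊆ u ∪ v → Φ ⁻¹' {c} ∩ (u ∩ v) = ∅ →
      p₀ ∈ u → Φ ⁻¹' {c} ⊆ u := by
    intro u v hu hv huv hd h₀ x hx
    have cπ : Continuous (F Real.pi) := hF.comp (continuous_const.prodMk continuous_id)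
    have dj : ∀ y, Φ y = c → y ∈ u → y ∈ v → False := fun y h1 h2 h3 =>
      (hd.subset ⟨h1, h2, h3⟩ : y ∈ (∅ : Set X))
    have inv : ∀ n : ℤ, ∀ y, Φ y = c → y ∈ u ∩ F Real.pi ⁻¹' u →
        F (n * Real.pi) y ∈ u ∩ F Real.pi ⁻¹' u := fun n y _ hy => by
      have per : ∀ m : ℤ, ∀ z, F (m * (2 * Real.pi)) z = z := fun m z => by
        induction m using Int.induction_on with
        | zero => simpa using h0 z
        | succ m ih => rw [Int.cast_add, add_mul, Int.cast_one, one_mul, ha, h2, ih]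
        | pred m ih =>
          conv_rhs => rw [← ih]
          rw [← h2 (F _ z), ← ha]
          congr 1
          push_cast
          ring
      obtain ⟨m, rfl | rfl⟩ := Int.even_or_odd' n
      · rwa [show ((2 * m : ℤ) : ℝ) * Real.pi = m * (2 * Real.pi) by push_cast; ring, per]
      · rw [show ((2 * m + 1 : ℤ) : ℝ) * Real.pi = m * (2 * Real.pi) + Real.pi by push_cast; ring, ha,
          per]
        exact ⟨hy.2, by rw [mem_preimage, hπ2]; exact hy.1⟩
    by_contra hn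
    obtain ⟨q, -, ⟨s, h1, h3⟩, s', h4, h5⟩ := isPreconnected_univ _ _
      (op _ (hu.inter (hu.preimage cπ))) (op _ (hv.union (hv.preimage cπ))) (fun q _ => by
        have h1 : Φ (F (Complex.arg (c / Φ q : Circle) / 2) q) = c := by
          rw [hr, e2, mul_div_cancel₀ _ two_ne_zero, Circle.exp_arg, div_mul_cancel]
        rcases huv h1 with h3 | h3
        · rcases huv ((hπ _).trans h1) with h4 | h4
          exacts [.inl ⟨_, ⟨h3, h4⟩, h1⟩, .inr ⟨_, .inr h4, h1⟩]
        · exact .inr ⟨_, .inl h3, h1⟩)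
      ⟨p₀, trivial, 0, by rw [h0]; exact ⟨⟨h₀, by rwa [mem_preimage, hf]⟩, hp⟩⟩
      ⟨x, trivial, 0, by rw [h0]; exact ⟨.inl ((huv hx).resolve_left hn), hx⟩⟩
    have h6 : Circle.exp (2 * s') = Circle.exp (2 * s) := by
      rw [hr, e2] at h3 h5
      exact mul_right_cancel (h5.trans h3.symm)
    obtain ⟨n, hn⟩ := Circle.exp_eq_exp.1 h6
    have h7 := inv n _ h3 h1
    rw [← ha, show n * Real.pi + s = s' by linarith] at h7
    rcases h4 with h4 | h4
    exacts [dj _ h5 h7.1 h4, dj _ ((hπ _).trans h5) h7.2 h4]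
  rw [isPreconnected_iff_subset_of_disjoint]
  intro u v hu hv huv hd
  rcases huv hp with h | h
  · exact .inl (key u v hu hv huv hd h)
  · exact .inr (key v u hv hu (by rwa [union_comm]) (by rwa [inter_comm v]) h)

variable {t : Tube} {r : ℝ}

theorem continuousOn_qa : ContinuousOn (qa t) {v | ff v ≠ 0} := fun _ h =>
  (ld_qa h).contMDiffAt.continuousAt.continuousWithinAt

theorem conn_Q (hr : 2 ≤ r) : IsPreconnected (Q t r) := by
  have hb : IsPreconnected (range (qb t)) := isPreconnected_range ld_qb.contMDiff.continuous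
  have hV : IsPreconnected {v : Circle × ℂ | ‖v.2‖ < r} := by
    have := isPreconnected_univ.prod ((convex_ball (0 : ℂ) r).isPreconnected) (α := Circle)
    rwa [← Tube.otube_eq] at this
  have key : ∀ u v : Set (C0 t), IsOpen u → IsOpen v → Q t r ⊆ u ∪ v → Q t r ∩ (u ∩ v) = ∅ →
      range (qb t) ⊆ u → Q t r ⊆ u := by
    rintro u v hu hv huv hd hs _ (⟨w, hw, rfl⟩ | hx)
    · by_contra hn
      obtain ⟨y, hy, h1, h2, h3⟩ := hV ({v | ff v ≠ 0} ∩ qa t ⁻¹' u ∪ range cT) ({v | ff v ≠ 0} ∩ qa t ⁻¹' v)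
        ((continuousOn_qa.isOpen_inter_preimage isOpen_ff_ne hu).union
          (ld_isOpenEmbedding ld_cT cT_injective).isOpen_range)
        (continuousOn_qa.isOpen_inter_preimage isOpen_ff_ne hv) (fun y hy => by
          by_cases h : ff y = 0
          · exact .inl (.inr (mem_range_cT.2 (by simp [h])))
          · rcases huv ((qa_mem_Q hr h).2 hy) with h' | h'
            exacts [.inl (.inl ⟨h, h'⟩), .inr ⟨h, h'⟩])
        ⟨cT (1, 0), (norm_cT_lt _).trans_le hr, .inr ⟨_, rfl⟩⟩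
        ⟨w, hw.2, hw.1, (huv (.inl ⟨w, hw, rfl⟩)).resolve_left hn⟩
      refine (hd.subset ⟨(qa_mem_Q hr h2).2 hy, ?_, h3⟩ : _ ∈ (∅ : Set (C0 t)))
      rcases h1 with h1 | ⟨a, rfl⟩
      · exact h1.2
      · have h4 : a.2 ≠ 0 := mt ff_cT_eq_zero.2 h2
        have h5 := qa_cT (t := t) (mon_ne 1 0 0 1 h4)
        rw [mon_mon _ _ _ _ _ _ _ _ h4] at h5
        exact hs ⟨_, h5.symm.trans (congrArg (qa t ∘ cT) (mon_id a))⟩
    · exact hs hx
  rw [isPreconnected_iff_subset_of_disjoint]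
  intro u v hu hv huv hd
  rcases isPreconnected_iff_subset_of_disjoint.1 hb u v hu hv (subset_union_right.trans huv)
    (subset_empty_iff.1 fun x hx => hd.subset ⟨.inr hx.1, hx.2⟩) with h | h
  · exact .inl (key u v hu hv huv hd h)
  · exact .inr (key v u hv hu (by rwa [union_comm]) (by rwa [inter_comm v]) h)

/-- the Seifert action on `Q t r`, slowed down to the identity outside `Q t (r + 1)` -/
def fla (t : Tube) (r s : ℝ) : C0 t → C0 t :=
  gl t (fun v => qa t (act (Circle.exp (bp r v.2 * s)) v)) (fun a => qb t (act (Circle.exp s) a)) (io t)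

theorem fla_match (hr : 2 ≤ r) (s : ℝ) (a : Circle × ℂ) (h : a.2 ≠ 0) :
    qa t (act (Circle.exp (bp r (cT (mon 1 0 0 1 a)).2 * s)) (cT (mon 1 0 0 1 a))) =
      qb t (act (Circle.exp s) a) := by
  rw [bp_one ((norm_cT_lt _).le.trans hr), one_mul, act_mon0 _ h, qa_cT (act_ne _ h)]

theorem fla_qb (s : ℝ) (a : Circle × ℂ) : fla t r s (qb t a) = qb t (act (Circle.exp s) a) := gl_qb a

theorem fla_qa (hr : 2 ≤ r) (s : ℝ) {v : Circle × ℂ} (h : ff v ≠ 0) :
    fla t r s (qa t v) = qa t (act (Circle.exp (bp r v.2 * s)) v) := gl_qa (fla_match hr s) h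

theorem fla_qa' (hr : 2 ≤ r) (s : ℝ) {v : Circle × ℂ} (h : ff v ≠ 0) (h' : ‖v.2‖ ≤ r) :
    fla t r s (qa t v) = qa t (act (Circle.exp s) v) := by rw [fla_qa hr s h, bp_one h', one_mul]

theorem fla_far (hr : 2 ≤ r) (s : ℝ) {x : S3} (h : x ∉ otube t (r + 1)) : fla t r s (io t x) = io t x :=
  gl_far (fla_match hr s) (by linarith) (fun v hv => by
    rw [bp_zero (by linarith) hv, zero_mul, Circle.exp_zero, act_one]; rfl) h

theorem contMDiff_fla (hr : 2 ≤ r) :
    ContMDiff (𝓘(ℝ, ℝ).prod (𝓡 3)) (𝓡 3) ∞ fun p : ℝ × C0 t => fla t r p.1 p.2 := by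
  refine contMDiff_C0 (fun s x hx => ?_) (fun s v hv => ?_) fun s a => ?_
  · refine ((ld_io (mem_cab_of_range hx)).contMDiffAt.comp (s, x)
      contMDiffAt_snd).congr_of_eventuallyEq ?_
    filter_upwards [continuousAt_snd.eventually (ev_far (r + 1) hx)] with p hp
    exact fla_far hr _ hp
  · refine ((ld_qa (ff_act_ne _ hv)).contMDiffAt.comp (s, v)
      (cact ((contMDiff_circleExp _).comp (s, v) ((((contDiff_bp r).contMDiff _).comp (s, v)
        contMDiffAt_snd.snd).mul contMDiffAt_fst)) contMDiffAt_snd)).congr_of_eventuallyEq ?_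
    filter_upwards [continuousAt_snd.eventually (ev_ff hv)] with p hp
    exact fla_qa hr _ hp
  · simp only [fla_qb]
    exact (ld_qb _).contMDiffAt.comp (s, a)
      (cact ((contMDiff_circleExp _).comp (s, a) contMDiffAt_fst) contMDiffAt_snd)

theorem Q_ind {P : C0 t → Prop} (h₁ : ∀ v, ff v ≠ 0 → ‖v.2‖ < r → P (qa t v)) (h₂ : ∀ a, P (qb t a))
    {p : C0 t} (hp : p ∈ Q t r) : P p := by
  rcases hp with ⟨v, hv, rfl⟩ | ⟨a, rfl⟩
  exacts [h₁ v hv.1 hv.2, h₂ a]

theorem fla_mem (hr : 2 ≤ r) (s : ℝ) {p : C0 t} (hp : p ∈ Q t r) : fla t r s p ∈ Q t r :=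
  Q_ind (P := fun p => fla t r s p ∈ Q t r)
    (fun v h h' => by rwa [fla_qa' hr s h h'.le, qa_mem_Q hr (ff_act_ne _ h), norm_act])
    (fun a => by rw [fla_qb]; exact qb_mem_Q _ _) hp

/-- the cabling annulus is connected -/
theorem conn_lev (k : KD) (hr : 2 ≤ r) (c : Circle) : IsConnected (Q k.toTube r ∩ Phi k ⁻¹' {c}) := by
  refine ⟨⟨qb _ (c, 0), qb_mem_Q _ _, Phi_qb k _⟩, ?_⟩
  haveI := isPreconnected_iff_preconnectedSpace.1 (conn_Q (t := k.toTube) hr)
  have h := conn_level (X := Q k.toTube r) (F := fun s p => ⟨fla _ r s p, fla_mem hr s p.2⟩)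
    (Φ := fun p => Phi k p) (c := c) (p₀ := ⟨qb _ (c, 0), qb_mem_Q _ _⟩)
    (((contMDiff_fla hr).continuous.comp (continuous_fst.prodMk
      (continuous_subtype_val.comp continuous_snd))).subtype_mk _)
    (fun p => Subtype.ext <| Q_ind (P := fun p => fla _ r 0 p = p)
      (fun v h h' => by rw [fla_qa' hr _ h h'.le, Circle.exp_zero, act_one])
      (fun a => by rw [fla_qb, Circle.exp_zero, act_one]) p.2)
    (fun s s' p => Subtype.ext <| Q_ind (P := fun p => fla _ r (s + s') p = fla _ r s (fla _ r s' p))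
      (fun v h h' => by
        rw [fla_qa' hr _ h h'.le, fla_qa' hr _ h h'.le,
          fla_qa' hr _ (ff_act_ne _ h) (by rw [norm_act]; exact h'.le), act_mul, Circle.exp_add])
      (fun a => by rw [fla_qb, fla_qb, fla_qb, act_mul, Circle.exp_add]) p.2)
    (fun p => Subtype.ext <| Q_ind (P := fun p => fla _ r (2 * Real.pi) p = p)
      (fun v h h' => by rw [fla_qa' hr _ h h'.le, Circle.exp_two_pi, act_one])
      (fun a => by rw [fla_qb, Circle.exp_two_pi, act_one]) p.2)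
    ((contMDiff_Phi k).continuous.comp continuous_subtype_val)
    (fun s p => Q_ind (P := fun p => Phi k (fla _ r s p) = Circle.exp s ^ 2 * Phi k p)
      (fun v h h' => by
        rw [fla_qa' hr _ h h'.le, Phi_qa k (ff_act_ne _ h), ff_act, dir_coe_mul _ h, Phi_qa k h])
      (fun a => by rw [fla_qb, Phi_qb, Phi_qb, act]) p.2)
    (Phi_qb k _) (Subtype.ext <| by
      show fla _ r _ (qb _ _) = qb _ _
      rw [fla_qb, act, sq, ← Circle.exp_add, ← two_mul, Circle.exp_two_pi, one_mul, mul_zero])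
  have h2 := h.image _ continuous_subtype_val.continuousOn
  rwa [show (fun p : Q k.toTube r => Phi k p) ⁻¹' {c} = Subtype.val ⁻¹' (Phi k ⁻¹' {c}) from rfl,
    Subtype.image_preimage_coe] at h2

/-- beyond radius `3` the level of `c ^ 2` consists of the two pages `c`, `-c` -/
theorem lev_far (k : KD) {x : S3} (h : x ∉ otube k.toTube 3) (c : Circle) :
    Phi k (io k.toTube x) = c ^ 2 ↔ thK k x = c ∨ thK k x = -c := by
  rw [Phi_far k h, Circle.ext_iff, Circle.ext_iff, Circle.ext_iff, sq, sq, Circle.coe_mul,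
    Circle.coe_mul, mul_self_eq_mul_self_iff, Circle.coe_neg]

end Crest.Agent.X212.Cab39
end
end

-- ▼ part X212/St29/Defs

/-!
# X212 / St29 (helper29): smooth Seifert data and the leaves of level zero

* `Out t r` : the outside of the closed tube of radius `r`, in the stereographic chart;
* `SS k r V ψ M` : field `V`, angle `Th k ψ`, plateau `M`; standard on the shell `r / 4 < ‖z‖ ≤ r`;
* `DicStmt` : genus certificate or unknot;  `TrpStmt` : transplant to the cable manifold.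
-/

set_option autoImplicit false
set_option linter.unusedSectionVars false

open Set Filter Topology Function
open scoped ContDiff Manifold
open Crest.GeometryTopology.DehnSurgery Crest.Agent.X212.Glue52 Crest.Agent.X212.Ext52
open Crest.Agent.X212.Sm10 Crest.Agent.X212.Hel40 Crest.Agent.X212.Cab39
open Crest.Agent.X212.Sep15 (CM)
open Crest.Agent.X212.Bb31 (Fm)
open Crest.Agent.X212.Int54 (Ori)
open Crest.Agent.X212.Flo26 (SmV)

noncomputable section

namespace Crest.Agent.X212.St29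

/-- the outside of the closed tube of radius `r` -/
def Out (t : Tube) (r : ℝ) : Set E3 := {p | sg t p ∉ ctube t r}

/-- the corrected angle -/
def An (k : KD) (ψ : E3 → ℝ) (p : E3) : Circle := th k p * Circle.exp (ψ p)

/-- smooth Seifert data -/
structure SS (k : KD) (r : ℝ) (V : E3 → E3) (ψ : E3 → ℝ) (M : Set E3) : Prop where
  pos : 0 < r
  smV : ContDiffOn ℝ ∞ V (Out k.toTube (r / 4))
  smψ : ContDiffOn ℝ ∞ ψ (Out k.toTube (r / 4))
  std : ∃ c : ℝ, ∀ z : Circle × ℂ, r / 4 < ‖z.2‖ → ‖z.2‖ ≤ r → ψ (tb k.toTube z) = c ∧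
    V (tb k.toTube z) = mfderiv IT (𝓡 3) (tb k.toTube) z
      ((0, Complex.I * z.2) : EuclideanSpace ℝ (Fin 1) × ℂ)
  cpt : IsCompact M
  sub : M ⊆ Out k.toTube r
  nn : ∀ p ∈ Out k.toTube (r / 4), 0 ≤ dl (𝓡 3) (An k ψ) p (V p)
  ps : ∀ p ∈ Out k.toTube (r / 4), p ∉ M → 0 < dl (𝓡 3) (An k ψ) p (V p)
  one : ∀ p ∈ M, An k ψ p = 1
  c0 : IsPreconnected {p | p ∈ Out k.toTube (r / 2) ∧ An k ψ p = 1 ∧ p ∉ M}
  c1 : IsPreconnected {p | p ∈ Out k.toTube (r / 2) ∧ An k ψ p = -1}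

/-- the Seifert surface -/
def Sei (k : KD) (r : ℝ) (ψ : E3 → ℝ) : Set E3 := {p | p ∈ Out k.toTube (r / 2) ∧ An k ψ p = -1}

/-- genus certificate on a set -/
structure Gc {X : Type*} [TopologicalSpace X] (F : Set X) (w : X → Circle) (L : Set X) : Prop where
  cpt : IsCompact L
  sub : L ⊆ F
  cont : ContinuousOn w F
  off : ∀ y ∈ F, y ∉ L → w y = 1
  nl : ¬ Lifts w F

/-- the cable manifold -/
abbrev Yc (t : Tube) : CM 3 := { M := C0 t }

/-- the zero filling -/
abbrev Yz (t : Tube) : CM 3 := { M := Fill t σ0 }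

/-- the chart of the exterior of the companion -/
def ic (t : Tube) (p : E3) : Yc t := io t (sg t p)

/-- PLAN: a closed connected oriented surface has an essential circle map or is planar off a point -/
def PlanStmt : Prop := ∀ X : Prf6.Sf, IsPreconnected (univ : Set X.R) →
  (∃ w : X.R → Circle, Continuous w ∧ ¬ Lifts w univ) ∨
    ∀ (x : X.R) (L : Set X.R), IsCompact L → x ∉ L → ∃ D, Prf6.St X.o D ∧ L ⊆ range D

/-- SCH: Schoenflies theorem for a smooth collar in the plane -/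
def SchStmt : Prop := ∀ (h : ℂ → ℂ) (a b : ℝ), 0 < a → a < 1 → 1 < b →
  InjOn h {z | a < ‖z‖ ∧ ‖z‖ < b} →
  (∀ z, a < ‖z‖ → ‖z‖ < b → IsLocalDiffeomorphAt 𝓘(ℝ, ℂ) 𝓘(ℝ, ℂ) ∞ h z) →
  ∃ g : ℂ → ℂ, IsOpenEmbedding g ∧ g '' Metric.sphere 0 1 = h '' Metric.sphere 0 1

/-- UNK: a parallel of the knot which bounds a flat disc -/
def UnkStmt : Prop := ∀ (t : Tube) (c : ℂ) (δ : ℂ × ℝ → S3), IsOpenEmbedding δ →
  δ '' (Metric.sphere (0 : ℂ) 1 ×ˢ {0}) = t.τ '' (univ ×ˢ {c}) → t.thick.IsUnknot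

/-- DIC: a knotted curve has a genus certificate -/
def DicStmt : Prop := ∀ (k : KD) (r : ℝ) (V : E3 → E3) (ψ : E3 → ℝ) (M : Set E3), SS k r V ψ M →
  ¬ k.thick.IsUnknot → ∃ w L, Gc (Sei k r ψ) w L

/-- TRP: level zero on the cable manifold, for every field which is changed on the plateau only -/
def TrpStmt : Prop := ∀ (k : KD) (r : ℝ) (V : E3 → E3) (ψ : E3 → ℝ) (M : Set E3) (w : E3 → Circle)
  (L : Set E3), 16 ≤ r → SS k r V ψ M → Gc (Sei k r ψ) w L →
  ∃ (v : Vf (Yc k.toTube)) (l : Yc k.toTube → ℝ), SmV (𝓡 3) v ∧ ContMDiff (𝓡 3) 𝓘(ℝ, ℝ) ∞ l ∧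
    (∀ p ∈ Out k.toTube (r / 2),
      (v (ic k.toTube p) : E3) = mfderiv (𝓡 3) (𝓡 3) (ic k.toTube) p (V p)) ∧
    ∀ (o : Fm 3 (Yc k.toTube)) (v' : Vf (Yc k.toTube)), Ori (𝓡 3) o → SmV (𝓡 3) v' →
      (∀ y ∉ ic k.toTube '' M, v' y = v y) →
      Bas o v' (fun y => Phi k y * Circle.exp (l y)) (ic k.toTube '' M) ∧
      IsPreconnected (PP (Y := Yc k.toTube) (fun y => Phi k y * Circle.exp (l y))
        (ic k.toTube '' M)) ∧
      ∃ F w' L', Cert v' (fun y => Phi k y * Circle.exp (l y)) (ic k.toTube '' M) F w' L'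

end Crest.Agent.X212.St29
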