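import Crest.Agent.X212.Loc74.Main
import Crest.Agent.X212.Sw88.Wz

/-!
# Row 212, EC-LOCA (helper29): the local bootstrap with a second spinor
-/

set_option autoImplicit false
set_option linter.unusedSectionVars false
noncomputable section
open scoped Manifold ContDiff Topology InnerProductSpace NNReal
open MeasureTheory Set Function Filter

namespace Crest.Agent.X212.St29.Ec
open An An.Pre Sob92 Lw78 Sw Rad57 Loc74
open Prm93 (Mix)
open M (Mf)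

variable {κ lam ν : Type} [Fintype κ] [Fintype lam] [Fintype ν] [DecidableEq ν] {α : Type}
  {l : Filter α} {X : Mf 4} {nc : ℕ} {V : Type} [NormedAddCommGroup V] [NormedSpace ℝ V]
  {ι : Type} [Fintype ι] {z : X.M} {F : Pre X.I X.M ι} {j : ℕ}

/-- from bounds in moving frames -/
theorem hb_mov {G : α → Pre X.I X.M ι} {n : α → ι → ι → X.M → ℝ}
    (hn : ∀ᶠ i in l, Mix (G i) F (n i)) (bn : ∀ j a b, HB l z F 0 j fun i => n i a b) :
    ∀ (j : ℕ) {f : α → X.M → V}, (∀ᶠ i in l, Sm X.I (f i)) →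
      (∃ C, ∀ᶠ q : α × X.M in l ×ˢ 𝓝 z, ∀ w : List ι, w.length ≤ j →
        ‖(G q.1).Dw w (f q.1) q.2‖ ≤ C) → HB l z F 0 (j + 1) f
  | 0, _, hs, ⟨C, h⟩ => .one0 hs ⟨C, h.mono fun _ k => k [] le_rfl⟩
  | j + 1, f, hs, ⟨C, h⟩ => .succ (.one0 hs ⟨C, h.mono fun _ k => k [] (Nat.zero_le _)⟩) fun a =>
      (HB.sum fun b => (bn _ a b).smul (hb_mov hn bn j (f := fun i => (G i).D b (f i))
        (hs.mono fun i k => (G i).sm_D k b) ⟨C, h.mono fun _ k w hw =>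
          k (b :: w) (Nat.succ_le_succ hw)⟩)).eq (hn.mono fun i k x => congrFun (k.D a (f i)) x)

theorem hb_dw : ∀ (w : List ι) {j : ℕ} {f : α → X.M → V}, HB l z F 0 (j + 1) f → w.length ≤ j →
    ∃ C, ∀ᶠ q : α × X.M in l ×ˢ 𝓝 z, ‖F.Dw w (f q.1) q.2‖ ≤ C
  | [], _, _, h, _ => h.bdd
  | a :: w, _ + 1, _, h, k => hb_dw w (h.D a) (Nat.le_of_succ_le_succ k)

/-- to bounds of iterated derivatives in any frame -/
theorem hb_bd {f : α → X.M → V} (h : HB l z F 0 (j + 1) f) (F' : Pre X.I X.M ι) :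
    ∃ C, ∀ᶠ q : α × X.M in l ×ˢ 𝓝 z, ∀ w : List ι, w.length ≤ j → ‖F'.Dw w (f q.1) q.2‖ ≤ C := by
  choose C hC using fun w : {w : List ι | w.length ≤ j} =>
    hb_dw (F := F') w.1 (.of_mb h.sm h.mb) w.2
  have := (List.finite_length_le ι j).to_subtype
  obtain ⟨B, hB⟩ := (finite_range C).bddAbove
  exact ⟨B, (eventually_all.2 hC).mono fun q k w hw => (k ⟨w, hw⟩).trans (hB ⟨_, rfl⟩)⟩

theorem of_l2' {f : α → X.M → V} (hs : ∀ᶠ i in l, Sm X.I (f i)) {O : Set X.M} (hO : O ∈ 𝓝 z)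
    (h : L2 F.μ l O f) : HB l z F 2 1 f := by
  have := Manifold.locallyCompact_of_finiteDimensional (M := X.M) X.I
  obtain ⟨K, hz, k1, hK⟩ := local_compact_nhds hO
  obtain ⟨B, hB⟩ := l2_mono h k1
  refine .of_int hz hK two_ne_zero hs ⟨B, (hB.and hs).mono fun i k => ?_⟩
  rw [integral_eq_lintegral_of_nonneg_ae (.of_forall fun _ => by positivity)
    (k.2.continuous.norm.fun_pow 2).aestronglyMeasurable]
  refine ENNReal.toReal_le_coe_of_le_coe (le_trans (le_of_eq ?_) k.1)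
  simp only [ENNReal.ofReal_pow (norm_nonneg _), ofReal_norm]

section nb
variable {b₀ : Bg X.I X.M κ lam ν nc} {b : α → Bg X.I X.M κ lam ν nc}
  {m : α → Option κ → Option κ → X.M → ℝ} {c : α → Cfg X.M κ ν} [l.NeBot] (h : Nb l b₀ b m)
include h

/-- the linear step -/
theorem stpL (hc : ∀ᶠ i in l, (b i).Adm (c i))
    (hr : HB l z b₀.F.toPre 2 (j + 1) fun i => (b i).eD (c i))
    (ha : ∀ k, HB l z b₀.F.toPre 0 (j + 1) fun i => (c i).a k)
    (k : HB l z b₀.F.toPre 2 (j + 1) fun i => (c i).Φ) :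
    HB l z b₀.F.toPre 2 (j + 2) fun i => (c i).Φ := by
  have hb := h.ok₀
  obtain ⟨_, hF⟩ := hb.tame
  obtain ⟨_, hA⟩ := good_s hb
  have ρ := fun a => (hb.cρ a).choose_spec.1
  have hp : ∀ᶠ i in l, ∀ x, (sOp b₀).p x ((c i).Φ x) = (c i).Φ x := (hc.and h.ok).mono
    fun i k x => (congrArg (·.p x ((c i).Φ x)) k.2.2.2.1).symm.trans (Win45.p_of k.2.1 (k.1.pΦ x))
  have k1 := fun i => (Cb_bil (.mul ℝ _) (hb.cρ i) (cb_jp hb)).choose_spec.1
  have hv := hr.sub (((HB.sum fun a => HB.bil (.mul ℝ _) (holL 0) (.fixed (ρ a)) (h.hA a)).add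
    (.of_mbOn (h.ok.mono fun _ s => s.1.cms.choose_spec.1) fun n => h.ms n z trivial)).app k)
  have he : ∀ k, Cmp73.Cv X.I l univ (fun i x => b₀.m.ρ k x - ∑ a, m i a k x • b₀.m.ρ a x)
      fun _ => 0 := fun k => ((Cmp73.Cv.fixed' (ρ k)).sub (.sum fun a => (h.cm a k).smul
        (.fixed' (ρ a)))).congr (fun _ _ => .of_forall fun _ => rfl) fun x _ => by
    simp only [b₀.F.P_symm _ k, show b₀.F.P = b₀.B.P from hb.G.P, (hb.m.cl x trivial).proj k, sub_self]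
  have hs : ∀ k, ∀ᶠ i in l, Sm X.I fun x => b₀.m.ρ k x - ∑ a, m i a k x • b₀.m.ρ a x := fun k =>
    h.sm.mono fun i s => (ρ k).sub (contMDiff_finsetSum fun a _ => (s a k).smul (ρ a))
  refine HB.ell hF hA (cliff_s hb) hp k he hs ((((HB.sum fun i => (ha i).smulR
    (.fixed (k1 i))).neg).app k).add hv) ((tendsto_fst.eventually h.ok).mono fun q k => ?_)
  have := app_s (b := b q.1) (c q.1) q.2
  rw [Op.app, k.2.2.2.2.op] at this
  simp only [sOp, Bg.jp, k.2.2.1] at this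
  simp only [ContinuousLinearMap.mul_apply', Bg.jp]
  rw [← this]
  simp [Op.app, Pre.op, sOp, -Fintype.sum_option]

/-- the local bootstrap -/
theorem bootL {φ : α → X.M → Eu ν} {g : α → Option κ → X.M → ℝ} (hg : ∀ i, Frm b₀.F (g i))
    (hd : ∀ᶠ x in 𝓝 z, ∀ i, dv1 b₀.F (g i) x = 0)
    (hc : ∀ᶠ i in l, (b i).Adm (c i) ∧ (b i).Adm ⟨(c i).a, φ i⟩ ∧ (c i).a = t1 (m i) (g i))
    (h1 : ∀ k, HB l z b₀.F.toPre 2 1 fun i => g i k)
    (h0 : HB l z b₀.F.toPre 0 1 fun i => (c i).Φ) (hφ : HB l z b₀.F.toPre 2 1 φ)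
    (hD : ∀ᶠ q : α × X.M in l ×ˢ 𝓝 z,
      (b q.1).eD (c q.1) q.2 = 0 ∧ (b q.1).eD ⟨(c q.1).a, φ q.1⟩ q.2 = 0)
    (hC : HB l z b₀.F.toPre 2 6 fun i => (b i).eC (c i)) :
    (∀ k, HB l z b₀.F.toPre 0 4 fun i => (c i).a k) ∧ HB l z b₀.F.toPre 0 4 φ := by
  obtain ⟨_, hF⟩ := h.ok₀.tame
  have ha : ∀ {n}, (∀ k, HB l z b₀.F.toPre 2 n fun i => g i k) →
      ∀ a, HB l z b₀.F.toPre 2 n fun i => (c i).a a := fun k a =>
    (HB.sum fun e => (h.hm a e).smul (k e)).eq (hc.mono fun i k x => congrFun₂ k.2.2 a x)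
  have D1 : ∀ n, HB l z b₀.F.toPre 2 n fun i => (b i).eD (c i) := fun n =>
    (HB.const 0).congr ((hc.and h.ok).mono fun i k x =>
      Sep15.S.sa_eD k.2.1 (k.1.1.sa · x) (k.1.1.sΦ x)) (hD.mono fun _ k => k.1)
  have D2 : ∀ n, HB l z b₀.F.toPre 2 n fun i => (b i).eD ⟨(c i).a, φ i⟩ := fun n =>
    (HB.const 0).congr ((hc.and h.ok).mono fun i k x =>
      Sep15.S.sa_eD k.2.1 (k.1.2.1.sa · x) (k.1.2.1.sΦ x)) (hD.mono fun _ k => k.2)
  have A : ∀ j ≤ 6, (∀ k, HB l z b₀.F.toPre 2 (j + 1) fun i => g i k) ∧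
      HB l z b₀.F.toPre 2 (j + 1) fun i => (c i).Φ := fun j => by
    induction j with
    | zero => exact fun _ => ⟨h1, h0.of0⟩
    | succ j ih =>
      intro hj
      have i := ih (Nat.le_of_succ_le hj)
      have k1 := stpA hF (vol4 h.ok₀) h.ok₀.co h.sm h.cm (fun i => (hg i).sm) (fun i => (hg i).pr)
        i.1 hd ((h.fc h0 i.2 (hC.of_le hj)).eq ((hc.and (h.ok.and h.sm)).mono fun i k x => by
          rw [fc_da k.2.1.1 k.1.1.sa, add_sub_cancel_left, k.1.2.2,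
            da_mix k.2.1.2.2.2.2 k.2.2 (hg i).sm (hg i).pr, p2_eq h.ok₀]))
      exact ⟨k1, h.stpS (hc.mono fun _ k => k.1) h0 (D1 _) (ha k1) i.2⟩
  have a7 := ha (A 6 le_rfl).1
  have a0 := fun k => HB.sob0 (j := 4) X.dim.le (a7 k)
  have c2 := hc.mono fun _ k => k.2.1
  have L : ∀ {j}, j ≤ 3 → HB l z b₀.F.toPre 2 (j + 1) φ → HB l z b₀.F.toPre 2 (j + 2) φ :=
    fun hj k => stpL (c := fun i => ⟨(c i).a, φ i⟩) h c2 (D2 _)
      (fun k => (a0 k).of_le (Nat.succ_le_succ hj)) k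
  have p4 := L (by omega) (L (by omega) (L (Nat.zero_le _) hφ))
  have S : ∀ {j}, j ≤ 5 → HB l z b₀.F.toPre 2 (j + 1) φ → HB l z b₀.F.toPre 2 (j + 2) φ :=
    fun hj k => h.stpS (c := fun i => ⟨(c i).a, φ i⟩) c2 (HB.sob0 (j := 1) X.dim.le p4) (D2 _)
      (fun k => (a7 k).of_le (by omega)) k
  exact ⟨a0, HB.sob0 (j := 4) X.dim.le (S le_rfl (S (by omega) (S (by omega) p4)))⟩

end nb

end Crest.Agent.X212.St29.Ec
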