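import Crest.Agent.X212.Sch47.Main_Mg
import Crest.Agent.X212.Lev39.Trp
import Crest.Agent.X212.Box46.Box
import Crest.Agent.X212.Sm10.Comb_Mg
import Crest.Agent.X212.Sm10.InPf

/-!
# X212 / St29 (helper29): the smooth hierarchy of the cable manifold
-/

set_option autoImplicit false
set_option linter.unusedSectionVars false

open Set Filter Topology Function Classical
open scoped ContDiff Manifold NNReal Real
open Crest.GeometryTopology.DehnSurgery Crest.Agent.X212.Glue52 Crest.Agent.X212.Ext52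
open Crest.Agent.X212.Sm10 Crest.Agent.X212.Hp13 Crest.Agent.X212.Mol27 Crest.Agent.X212.Alg36
open Crest.Agent.X212.Hel40 (Vf Hi SmH)
open Crest.Agent.X212.Ind26 (Coh Adm Cov Hier)
open Crest.Agent.X212.Sep15 (CM)
open Crest.Agent.X212.Bb31 (Fm)
open Crest.Agent.X212.Int54 (Ori)
open Crest.Agent.X212.Flo26 (SmV)
open Crest.Agent.X212.Cab39 (Phi)

noncomputable section

namespace Crest.Agent.X212.St29

/-- CHF: the stages over the plateau of stage `-1`, with the field changed inside the plateau -/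
def ChfStmt : Prop := ∀ (t c : St) (w : t.P → t.P → ℤ) (q : c.P → t.P), IsUpperSet t.A → Adm t w →
  Cov t c w q → Hier c → ∃ δ > (0 : ℝ), ∃ a b d : ℝ, Thr (Fintype.card t.P * δ) a b d ∧
    ∀ (L : LC E3 t.A δ) (v : E3 → E3) (Y : CM 3) (V : Vf Y) (j : E3 → Y), L.Fld v →
      ContDiff ℝ ∞ v → SmV (𝓡 3) V → (∀ y ∈ L.U, IsLocalDiffeomorphAt (𝓡 3) (𝓡 3) ∞ j y) →
      InjOn j L.U → (∀ y ∈ L.U, (V (j y) : E3) = mfderiv (𝓡 3) (𝓡 3) j y (v y)) →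
      ∃ (V' : Vf Y) (n : ℕ), SmV (𝓡 3) V' ∧
        (∀ y ∉ j '' {y | y ∈ L.U ∧ L.m y ≤ a ∧ L.phi w d y = 1}, V' y = V y) ∧
        Hi V' false n (j '' {y | y ∈ L.U ∧ L.m y ≤ a ∧ L.phi w d y = 1})

/-- the smooth hierarchy of a knotted curve -/
theorem smH_of (H1 : I1Stmt) (H2 : I2Stmt) (H3 : MuStmt) (H4 : ChfStmt)
    (hH : ∀ c, Cut21.Stt c → ∃ t f, Desc c t f ∧ Hier t) (k : KD) (hk : ¬ k.thick.IsUnknot) :
    ∃ l : Yc k.toTube → ℝ, ContMDiff (𝓡 3) 𝓘(ℝ, ℝ) ∞ l ∧ ∀ o : Fm 3 (Yc k.toTube), Ori (𝓡 3) o →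
      SmH o fun y => Phi k y * Circle.exp (l y) := by
  obtain ⟨k', -, hO, -, -, hS⟩ := Lev39.sclStmt k
  obtain ⟨η₁, p1, h1⟩ := exists_sm k'
  obtain ⟨η₂, p2, h2⟩ := H3 k'
  have h := h1 _ (min_le_left η₁ η₂)
  obtain ⟨s, hs, hA, ⟨g⟩⟩ := inStmt k' _ (lt_min p1 p2)
  obtain ⟨t, f, w, c, q, hd, hc, hw, hq, hi⟩ := start g h hH hs hA
  obtain ⟨N, hN, hu⟩ := up k' _ s hA g
  obtain ⟨R, r1, r2⟩ := near s t f hd g.R N hN
  obtain ⟨g', -, -, -, -, ez, -⟩ := hu t f hd.A_eq R r1 r2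
  obtain ⟨δ, hδ, a, b, d, T, hC⟩ := H4 t c w q (upper_desc hd hA) hw hq hi
  obtain ⟨μ, m1, m2, m3⟩ := h2 _ (min_le_right η₁ η₂) t g' δ hδ
  obtain ⟨L, D, hv, hU, hM⟩ := dat g' h H1 H2 (upper_desc hd hA) (ez ▸ hc) hw hδ T m1 m2 m3
  obtain ⟨V, ψ, S, eV, -⟩ := Lev39.ssStmt k' D
  have S := hS _ _ _ _ S
  obtain ⟨u, K, G⟩ := Dic6.dic Box46.box Sch47.sch Sch47.unk k _ _ _ _ S hk
  obtain ⟨v, l, sv, sl, ev, hb⟩ := Lev39.trp k _ _ _ _ u K (by norm_num) S G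
  have o : ∀ y ∈ L.U, y ∈ Out k.toTube (64 * (3 / 8) / 2) := fun y hy =>
    Lev39.Out_anti (by norm_num) (hO _ y (hU y hy).1)
  obtain ⟨v', n, sv', ev', hn⟩ := hC L D.v (Yc k.toTube) v (ic k.toTube) hv D.smv sv
    (fun y hy => Lev39.ld_ic (by norm_num) (o y hy)) ((Lev39.ic_inj (by norm_num)).mono o)
    fun y hy => by rw [ev y (o y hy), eV y (hU y hy).1 (hU y hy).2.1]
  rw [← hM] at ev' hn
  refine ⟨l, sl, fun o ho => ?_⟩
  obtain ⟨b1, b2, F, w', K', b3⟩ := hb o v' ho sv' ev'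
  exact ⟨v', _, n, F, w', K', b1, b2, hn, b3⟩

end Crest.Agent.X212.St29
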