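import Crest.Agent.X212.Hel40.Main
import Crest.Agent.X212.Sm10.InPf
import Crest.Agent.X212.St29.Asm
import Crest.Agent.X212.Sm10.Mv
import Crest.Agent.X212.Sm10.Cel
import Crest.Agent.X212.Sm10.Cert
import Crest.Agent.X212.Sm25.Last
import Crest.Agent.X212.Hd34.S29a
import Crest.Agent.X212.Hd34.S29b
import Crest.Agent.X212.Hd34.S29c
import Crest.Agent.X212.St29.Chf
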