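import Crest.Agent.X212.Sep15.Cv
import Crest.Agent.X212.Cvf40.Main
import Crest.Agent.X212.Sm10.Site
import Crest.Agent.X212.St29.Mom
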